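import Vale.Agent.Lib.P113_helper29.MixedDefs
import Vale.Agent.Lib.P113.PRReal

/-!
A generic compiler: from primitive recursive approximations of `A` and `B` and a computable
real `ν`, programs computing `A - ν * B` uniformly in a parameter.
-/

namespace Vale.Agent.Lib.P113

open Encodable

/-- s-m-n for total computable functions of two arguments -/
theorem exists_code_family {δ ι σ : Type} [Primcodable δ] [Primcodable ι] [Primcodable σ]
    {G : δ × ι → σ} (hG : Computable G) :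
    ∃ comp : δ → Nat.Partrec.Code, Computable comp ∧
      ∀ (D : δ) (p : ι), (comp D).eval (encode p) = Part.some (encode (G (D, p))) := by
  obtain ⟨c0, hc0⟩ := Nat.Partrec.Code.exists_code.1 hG
  refine ⟨fun D => Nat.Partrec.Code.curry c0 (encode D),
    (Nat.Partrec.Code.primrec₂_curry.comp (Primrec.const c0) Primrec.encode).to_comp,
    fun D p => ?_⟩
  rw [Nat.Partrec.Code.eval_curry, hc0, ← encode_prod_val]
  simp

theorem abs_le_qbd_add_one {x : ℝ} {r : Q} (h : |x - qval r| ≤ 1 / (((0 : ℕ) : ℝ) + 1)) :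
    |x| ≤ (qbd r : ℝ) + 1 := by
  have h1 := abs_qval_le r
  have : |x| ≤ |x - qval r| + |qval r| := by
    have := abs_add_le (x - qval r) (qval r)
    simpa using this
  simp at h
  linarith

/-- a full query to the force program -/
abbrev InpE : Type := (ℕ × ℕ × ℕ × ℕ) × Fin 3 × Q × (Q × Q × Q) × (ℕ × ℕ)

theorem exists_compiler {δ : Type} [Primcodable δ] {ν : ℝ} (hc : IsComputableReal ν)
    {A B : δ × Inp → ℝ} (hA : PRReal A) (hB : PRReal B) :
    ∃ comp : δ → Nat.Partrec.Code, Computable comp ∧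
      ∀ (D : δ) (a : ℕ × ℕ × ℕ × ℕ) (i : Fin 3) (t : Q) (x : Q × Q × Q) (e : ℕ × ℕ),
        ∃ r : Q, (comp D).eval (Encodable.encode (a, i, t, x, e)) = Part.some (Encodable.encode r) ∧
          |A (D, (a, i, t, x)) - ν * B (D, (a, i, t, x)) - qval r|
            ≤ ((e.1 : ℝ) + 1) / ((e.2 : ℝ) + 1) := by
  obtain ⟨g, hg, hgb⟩ := hc
  obtain ⟨fA, hfA, hfAb⟩ := hA
  obtain ⟨fB, hfB, hfBb⟩ := hB
  let P : δ × InpE → δ × Inp := fun q => (q.1, (q.2.1, q.2.2.1, q.2.2.2.1, q.2.2.2.2.1))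
  have hP : Primrec P := by fun_prop
  let n : δ × InpE → ℕ := fun q => 2 * q.2.2.2.2.2.2 + 1
  have hn : Primrec n := by fun_prop
  let m : δ × InpE → ℕ := fun q => (n q + 1) * (qbd (g 0) + qbd (fB (P q, 0)) + 3)
  have hm : Primrec m := by fun_prop
  let H : (δ × InpE) × Q → Q := fun z => qsub (fA (P z.1, n z.1)) (qmul z.2 (fB (P z.1, m z.1)))
  have hH : Primrec H := by fun_prop
  let G : δ × InpE → Q := fun q => H (q, g (m q))
  have hG : Computable G := hH.to_comp.comp (Computable.id.pair (hg.comp hm.to_comp))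
  obtain ⟨comp, hcomp, hev⟩ := exists_code_family hG
  refine ⟨comp, hcomp, fun D a i t x e => ⟨G (D, (a, i, t, x, e)), hev D (a, i, t, x, e), ?_⟩⟩
  set p : δ × Inp := (D, (a, i, t, x)) with hp
  set N : ℕ := 2 * e.2 + 1 with hN
  set M : ℕ := (N + 1) * (qbd (g 0) + qbd (fB (p, 0)) + 3) with hM
  have hGe : G (D, (a, i, t, x, e)) = qsub (fA (p, N)) (qmul (g M) (fB (p, M))) := rfl
  rw [hGe]
  simp only [qval_qsub, qval_qmul]
  have hν0 : |ν| ≤ (qbd (g 0) : ℝ) + 1 := abs_le_qbd_add_one (hgb 0)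
  have hB0 : |B p| ≤ (qbd (fB (p, 0)) : ℝ) + 1 := abs_le_qbd_add_one (hfBb p 0)
  have h1 := hfAb p N
  have h2 := hgb M
  have h3 := hfBb p M
  have hle1 : (1 : ℝ) / ((M : ℝ) + 1) ≤ 1 := by
    rw [div_le_one (by positivity)]; linarith [Nat.cast_nonneg (α := ℝ) M]
  have hBM : |qval (fB (p, M))| ≤ (qbd (fB (p, 0)) : ℝ) + 2 := by
    have : |qval (fB (p, M))| ≤ |B p - qval (fB (p, M))| + |B p| := by
      have := abs_sub_abs_le_abs_sub (qval (fB (p, M))) (B p)
      rw [abs_sub_comm] at this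
      linarith
    linarith
  have key : ((qbd (g 0) + qbd (fB (p, 0)) + 3 : ℕ) : ℝ) / ((M : ℝ) + 1) ≤ 1 / ((N : ℝ) + 1) :=
    inv_le_of_mul_le (by simp only [hM]; omega)
  have hmul : |ν * B p - qval (g M) * qval (fB (p, M))| ≤ 1 / ((N : ℝ) + 1) := by
    calc |ν * B p - qval (g M) * qval (fB (p, M))|
        = |ν * (B p - qval (fB (p, M))) + (ν - qval (g M)) * qval (fB (p, M))| := by ring_nf
      _ ≤ |ν * (B p - qval (fB (p, M)))| + |(ν - qval (g M)) * qval (fB (p, M))| :=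
          abs_add_le _ _
      _ = |ν| * |B p - qval (fB (p, M))| + |ν - qval (g M)| * |qval (fB (p, M))| := by
          rw [abs_mul, abs_mul]
      _ ≤ ((qbd (g 0) : ℝ) + 1) * (1 / ((M : ℝ) + 1))
            + (1 / ((M : ℝ) + 1)) * ((qbd (fB (p, 0)) : ℝ) + 2) := by
          gcongr
      _ = ((qbd (g 0) + qbd (fB (p, 0)) + 3 : ℕ) : ℝ) / ((M : ℝ) + 1) := by
          push_cast; ring
      _ ≤ _ := key
  have hfin : (2 : ℝ) / ((N : ℝ) + 1) ≤ ((e.1 : ℝ) + 1) / ((e.2 : ℝ) + 1) := by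
    have hNe : (N : ℝ) + 1 = 2 * ((e.2 : ℝ) + 1) := by rw [hN]; push_cast; ring
    rw [hNe, div_le_div_iff₀ (by positivity) (by positivity)]
    have : (0 : ℝ) ≤ (e.1 : ℝ) := by positivity
    have h' : (0 : ℝ) ≤ (e.2 : ℝ) := by positivity
    nlinarith
  calc |A p - ν * B p - (qval (fA (p, N)) - qval (g M) * qval (fB (p, M)))|
      = |(A p - qval (fA (p, N))) - (ν * B p - qval (g M) * qval (fB (p, M)))| := by ring_nf
    _ ≤ |A p - qval (fA (p, N))| + |ν * B p - qval (g M) * qval (fB (p, M))| := abs_sub _ _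
    _ ≤ 1 / ((N : ℝ) + 1) + 1 / ((N : ℝ) + 1) := add_le_add h1 hmul
    _ = (2 : ℝ) / ((N : ℝ) + 1) := by ring
    _ ≤ _ := hfin

end Vale.Agent.Lib.P113
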