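import Vale.Agent.Lib.P113.PRReal
import Vale.Agent.Lib.P113_helper7.Basic1D

/-!
All derivatives of the smooth step at rational points are primitive recursively approximable,
given that the step itself is.  On the open unit interval the `k`-th derivative is a polynomial
in `1/s`, `1/(1-s)` and the value of the step, represented by a list of monomials.
-/

namespace Vale.Agent.Lib.P113

open Set Filter Topology

/-- a monomial `c * P^i * R^j * y^l` -/
abbrev Mon : Type := Q × ℕ × ℕ × ℕ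

/-- value of a monomial -/
noncomputable def monEv (P R y : ℝ) (m : Mon) : ℝ :=
  qval m.1 * P ^ m.2.1 * R ^ m.2.2.1 * y ^ m.2.2.2

/-- derivative of a monomial under `P' = -P^2`, `R' = R^2`, `y' = y (1-y) (P^2+R^2)` -/
def monD (m : Mon) : List Mon :=
  [(qmul (qneg (qnat m.2.1)) m.1, m.2.1 + 1, m.2.2.1, m.2.2.2),
   (qmul (qnat m.2.2.1) m.1, m.2.1, m.2.2.1 + 1, m.2.2.2),
   (qmul (qnat m.2.2.2) m.1, m.2.1 + 2, m.2.2.1, m.2.2.2),
   (qmul (qnat m.2.2.2) m.1, m.2.1, m.2.2.1 + 2, m.2.2.2),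
   (qmul (qneg (qnat m.2.2.2)) m.1, m.2.1 + 2, m.2.2.1, m.2.2.2 + 1),
   (qmul (qneg (qnat m.2.2.2)) m.1, m.2.1, m.2.2.1 + 2, m.2.2.2 + 1)]

/-- the monomials of the `k`-th derivative of the step -/
def monList (k : ℕ) : List Mon := (fun L : List Mon => L.flatMap monD)^[k] [((1, 0, 0), 0, 0, 1)]

@[fun_prop] theorem pr_monD {α : Type*} [Primcodable α] {f : α → Mon} (hf : Primrec f) :
    Primrec (fun x => monD (f x)) := by unfold monD; fun_prop

@[fun_prop] theorem pr_monList {α : Type*} [Primcodable α] {f : α → ℕ} (hf : Primrec f) :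
    Primrec (fun x => monList (f x)) := by unfold monList; fun_prop

theorem monList_succ (k : ℕ) : monList (k + 1) = (monList k).flatMap monD := by
  simp only [monList, Function.iterate_succ_apply']

theorem hasDerivAt_pow_of_mul {f : ℝ → ℝ} {b x : ℝ} (hf : HasDerivAt f (f x * b) x) (n : ℕ) :
    HasDerivAt (fun t => f t ^ n) (n * f x ^ n * b) x := by
  refine (hf.fun_pow n).congr_deriv ?_
  cases n with
  | zero => simp
  | succ n => simp only [Nat.add_sub_cancel]; ring

theorem hasDerivAt_sg_of_mem {s : ℝ} (h0 : 0 < s) (h1 : s < 1) :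
    HasDerivAt Real.smoothTransition
      (Real.smoothTransition s * ((1 - Real.smoothTransition s) * ((s⁻¹) ^ 2 + ((1 - s)⁻¹) ^ 2))) s := by
  have hs : s ≠ 0 := h0.ne'
  have hs1 : 1 - s ≠ 0 := by linarith
  have hu : HasDerivAt (fun x : ℝ => Real.exp (-x⁻¹)) (Real.exp (-s⁻¹) * (s⁻¹) ^ 2) s := by
    refine ((hasDerivAt_inv hs).fun_neg).exp.congr_deriv ?_
    simp
  have hv : HasDerivAt (fun x : ℝ => Real.exp (-(1 - x)⁻¹))
      (Real.exp (-(1 - s)⁻¹) * (-((1 - s)⁻¹) ^ 2)) s := by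
    have h2 : HasDerivAt (fun x : ℝ => 1 - x) (-1) s := by
      simpa using (hasDerivAt_id s).const_sub 1
    refine ((h2.fun_inv hs1).fun_neg).exp.congr_deriv ?_
    field_simp
  have hpos : 0 < Real.exp (-s⁻¹) + Real.exp (-(1 - s)⁻¹) := by positivity
  have hq := hu.fun_div (hu.fun_add hv) hpos.ne'
  have heq : Real.smoothTransition =ᶠ[𝓝 s]
      fun x => Real.exp (-x⁻¹) / (Real.exp (-x⁻¹) + Real.exp (-(1 - x)⁻¹)) := by
    filter_upwards [Ioo_mem_nhds h0 h1] with x hx
    have e1 : expNegInvGlue x = Real.exp (-x⁻¹) := by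
      simp [expNegInvGlue, not_le.2 hx.1]
    have e2 : expNegInvGlue (1 - x) = Real.exp (-(1 - x)⁻¹) := by
      have : ¬ (1 - x ≤ 0) := by linarith [hx.2]
      simp only [expNegInvGlue, if_neg this]
    rw [Real.smoothTransition, e1, e2]
  refine (hq.congr_of_eventuallyEq heq).congr_deriv ?_
  rw [heq.eq_of_nhds]
  set u := Real.exp (-s⁻¹)
  set v := Real.exp (-(1 - s)⁻¹)
  field_simp
  ring

theorem hasDerivAt_monEv {s : ℝ} (h0 : 0 < s) (h1 : s < 1) (m : Mon) :
    HasDerivAt (fun t => monEv t⁻¹ (1 - t)⁻¹ (Real.smoothTransition t) m)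
      (((monD m).map (monEv s⁻¹ (1 - s)⁻¹ (Real.smoothTransition s))).sum) s := by
  have hs : s ≠ 0 := h0.ne'
  have hs1 : 1 - s ≠ 0 := by linarith
  have hP : HasDerivAt (fun t : ℝ => t⁻¹) (s⁻¹ * (-s⁻¹)) s := by
    refine (hasDerivAt_inv hs).congr_deriv ?_
    field_simp
  have hR : HasDerivAt (fun t : ℝ => (1 - t)⁻¹) ((1 - s)⁻¹ * (1 - s)⁻¹) s := by
    have h2 : HasDerivAt (fun x : ℝ => 1 - x) (-1) s := by
      simpa using (hasDerivAt_id s).const_sub 1
    refine (h2.fun_inv hs1).congr_deriv ?_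
    field_simp
  have hy := hasDerivAt_sg_of_mem h0 h1
  have h := (((hasDerivAt_pow_of_mul hP m.2.1).const_mul (qval m.1)).fun_mul
    (hasDerivAt_pow_of_mul hR m.2.2.1)).fun_mul (hasDerivAt_pow_of_mul hy m.2.2.2)
  refine h.congr_deriv ?_
  simp only [monD, monEv, List.map_cons, List.map_nil, List.sum_cons, List.sum_nil, qval_qmul,
    qval_qneg, qval_qnat]
  ring

theorem hasDerivAt_monEv_sum {s : ℝ} (h0 : 0 < s) (h1 : s < 1) (L : List Mon) :
    HasDerivAt (fun t => (L.map (monEv t⁻¹ (1 - t)⁻¹ (Real.smoothTransition t))).sum)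
      (((L.flatMap monD).map (monEv s⁻¹ (1 - s)⁻¹ (Real.smoothTransition s))).sum) s := by
  induction L with
  | nil => simpa using hasDerivAt_const s (0 : ℝ)
  | cons m L ih =>
    simp only [List.map_cons, List.sum_cons, List.flatMap_cons, List.map_append, List.sum_append]
    exact (hasDerivAt_monEv h0 h1 m).fun_add ih

theorem iteratedDeriv_sg_of_mem (k : ℕ) {s : ℝ} (h0 : 0 < s) (h1 : s < 1) :
    iteratedDeriv k Real.smoothTransition s
      = ((monList k).map (monEv s⁻¹ (1 - s)⁻¹ (Real.smoothTransition s))).sum := by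
  induction k generalizing s with
  | zero => simp [monList, monEv, qval]
  | succ k ih =>
    rw [iteratedDeriv_succ, monList_succ]
    have heq : iteratedDeriv k Real.smoothTransition =ᶠ[𝓝 s]
        fun t => ((monList k).map (monEv t⁻¹ (1 - t)⁻¹ (Real.smoothTransition t))).sum := by
      filter_upwards [Ioo_mem_nhds h0 h1] with x hx
      exact ih hx.1 hx.2
    rw [heq.deriv_eq]
    exact (hasDerivAt_monEv_sum h0 h1 (monList k)).deriv

theorem prreal_iteratedDeriv_of_sg (h : PRReal (fun r : Q => Real.smoothTransition (qval r))) :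
    PRReal (fun a : ℕ × Q => iteratedDeriv a.1 Real.smoothTransition (qval a.2)) := by
  have hy : PRReal (fun p : (ℕ × Q) × Mon => Real.smoothTransition (qval p.1.2) ^ p.2.2.2.2) :=
    PRReal.pow_unit (h.comp (h := fun p : (ℕ × Q) × Mon => p.1.2) (by fun_prop))
      (fun a => ⟨Real.smoothTransition.nonneg _, Real.smoothTransition.le_one _⟩) (by fun_prop)
  have hc : PRReal (fun p : (ℕ × Q) × Mon =>
      qval (qmul (qmul p.2.1 (qpow (qinv p.1.2) p.2.2.1))
        (qpow (qinv (qsub (1, 0, 0) p.1.2)) p.2.2.2.1))) := PRReal.ofQ (by fun_prop)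
  have hS := PRReal.list_sum (L := fun a : ℕ × Q => monList a.1) (by fun_prop) (hc.mul hy)
  have hz : PRReal (fun _ : ℕ × Q => (0 : ℝ)) := PRReal.zero
  have h0 : PRReal (fun a : ℕ × Q => Real.smoothTransition (qval a.2)) :=
    h.comp (h := fun a : ℕ × Q => a.2) (by fun_prop)
  have hfin := PRReal.ite_eq (f := fun a : ℕ × Q => a.1) (g := fun _ => 0) (by fun_prop)
    (by fun_prop) h0
    (PRReal.ite_le (f := fun a : ℕ × Q => qleL a.2 (0, 0, 0)) (g := fun a => qleR a.2 (0, 0, 0))
      (by fun_prop) (by fun_prop) hz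
      (PRReal.ite_le (f := fun a : ℕ × Q => qleL (1, 0, 0) a.2) (g := fun a => qleR (1, 0, 0) a.2)
        (by fun_prop) (by fun_prop) hz hS))
  refine hfin.of_eq fun a => ?_
  obtain ⟨k, s⟩ := a
  have hz' : qval ((0, 0, 0) : Q) = 0 := by simp [qval]
  have ho' : qval ((1, 0, 0) : Q) = 1 := by simp [qval]
  simp only [qle_iff, hz', ho']
  split_ifs with hk hs0 hs1
  · subst hk; simp
  · exact (iteratedDeriv_sg_eq_zero (Nat.pos_of_ne_zero hk) (Or.inl hs0)).symm
  · exact (iteratedDeriv_sg_eq_zero (Nat.pos_of_ne_zero hk) (Or.inr hs1)).symm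
  · rw [iteratedDeriv_sg_of_mem k (not_le.1 hs0) (not_le.1 hs1)]
    congr 1
    refine List.map_congr_left fun m _ => ?_
    simp only [monEv, qval_qmul, qval_qpow, qval_qinv, qval_qsub, ho']

end Vale.Agent.Lib.P113
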